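import Mathlib

/-!
Basic facts on injective holomorphic functions.
-/

set_option autoImplicit false

open Metric Set Filter Topology

namespace Crest.Agent.Lib.Complex

/-- An injective function on an open set is nowhere locally constant. -/
theorem not_eventually_const_of_injOn {U : Set ℂ} {f : ℂ → ℂ} (hU : IsOpen U) (hi : InjOn f U)
    {z : ℂ} (hz : z ∈ U) : ¬ ∀ᶠ w in 𝓝 z, f w = f z := by
  intro h
  have h1 : ∀ᶠ w in 𝓝[≠] z, False := by
    filter_upwards [nhdsWithin_le_nhds h, nhdsWithin_le_nhds (hU.mem_nhds hz),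
      self_mem_nhdsWithin] with w h1 h2 h3 using h3 (hi h2 hz h1)
  exact h1.exists.choose_spec

/-- An injective holomorphic function has nowhere vanishing derivative. -/
theorem deriv_ne_zero_of_injOn {U : Set ℂ} {f : ℂ → ℂ} (hU : IsOpen U)
    (hf : DifferentiableOn ℂ f U) (hi : InjOn f U) {z : ℂ} (hz : z ∈ U) : deriv f z ≠ 0 := by
  intro h0
  have han : AnalyticAt ℂ (fun w => f w - f z) z :=
    (hf.analyticAt (hU.mem_nhds hz)).sub analyticAt_const
  obtain ⟨n, g, hg, hg0, hfg⟩ := han.exists_eventuallyEq_pow_smul_nonzero_iff.2 (by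
    simpa only [sub_eq_zero] using not_eventually_const_of_injOn hU hi hz)
  simp only [smul_eq_mul] at hfg
  have hn0 : n ≠ 0 := by
    rintro rfl
    apply hg0
    simpa using hfg.self_of_nhds.symm
  have hn1 : n ≠ 1 := by
    rintro rfl
    apply hg0
    have h1 : HasDerivAt (fun w => (w - z) ^ 1 * g w) (g z) z := by
      have h3 := ((hasDerivAt_id' z).sub_const z).fun_mul hg.differentiableAt.hasDerivAt
      simp only [pow_one]
      exact h3.congr_deriv (by simp)
    have h2 := (h1.congr_of_eventuallyEq hfg).deriv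
    rw [deriv_sub_const, h0] at h2
    exact h2.symm
  have hnC : (n : ℂ) ≠ 0 := by exact_mod_cast hn0
  let h : ℂ → ℂ := fun w => (w - z) * Complex.exp (Complex.log (g w / g z) / n)
  have hh : AnalyticAt ℂ h z := by
    refine (analyticAt_id.sub analyticAt_const).mul (AnalyticAt.cexp' (AnalyticAt.div_const ?_))
    exact (hg.div_const).clog (by simp [hg0])
  have hh0 : h z = 0 := by simp [h]
  have hopen : 𝓝 (h z) ≤ map h (𝓝 z) := by
    refine hh.eventually_constant_or_nhds_le_map_nhds.resolve_left fun hc => ?_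
    have h1 : ∀ᶠ w in 𝓝[≠] z, False := by
      filter_upwards [nhdsWithin_le_nhds hc, self_mem_nhdsWithin] with w h1 h3
      rw [hh0] at h1
      exact mul_ne_zero (sub_ne_zero.2 h3) (Complex.exp_ne_zero _) h1
    exact h1.exists.choose_spec
  have hN : {w | w ∈ U ∧ f w - f z = g z * h w ^ n} ∈ 𝓝 z := by
    filter_upwards [hU.mem_nhds hz, hfg, hg.continuousAt.eventually_ne hg0] with w h1 h2 h3
    refine ⟨h1, ?_⟩
    rw [h2, mul_pow, ← Complex.exp_nat_mul, mul_div_cancel₀ _ hnC,
      Complex.exp_log (div_ne_zero h3 hg0)]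
    field_simp
  obtain ⟨ε, hε, hball⟩ := Metric.mem_nhds_iff.1 (hopen (image_mem_map hN))
  rw [hh0] at hball
  have hprim := Complex.isPrimitiveRoot_exp n hn0
  set ζ := Complex.exp (2 * Real.pi * Complex.I / n) with hζ
  have hζ1 : ‖ζ‖ = 1 := hprim.norm'_eq_one hn0
  have hε2 : ‖((ε / 2 : ℝ) : ℂ)‖ < ε := by
    rw [Complex.norm_real, Real.norm_of_nonneg (by positivity)]; linarith
  obtain ⟨w₁, ⟨a1, a2⟩, a3⟩ := hball (mem_ball_zero_iff.2 hε2)
  obtain ⟨w₂, ⟨b1, b2⟩, b3⟩ := hball (a := ((ε / 2 : ℝ) : ℂ) * ζ) (mem_ball_zero_iff.2 (by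
    rw [norm_mul, hζ1, mul_one]; exact hε2))
  have hw : w₁ = w₂ := by
    apply hi a1 b1
    rw [← sub_left_inj (a := f z), a2, b2, a3, b3, mul_pow, hprim.pow_eq_one, mul_one]
  rw [hw, b3] at a3
  have hε0 : ((ε / 2 : ℝ) : ℂ) ≠ 0 := by exact_mod_cast (by positivity : ε / 2 ≠ 0)
  exact hprim.ne_one (by omega) (mul_left_cancel₀ hε0 (by rw [a3, mul_one]))

/-- An injective holomorphic function maps open sets to open sets. -/
theorem isOpen_image_of_injOn {U : Set ℂ} {f : ℂ → ℂ} (hU : IsOpen U)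
    (hf : DifferentiableOn ℂ f U) (hi : InjOn f U) {V : Set ℂ} (hV : IsOpen V) (hVU : V ⊆ U) :
    IsOpen (f '' V) := by
  rw [isOpen_iff_mem_nhds]
  rintro _ ⟨z, hz, rfl⟩
  exact ((hf.analyticAt (hU.mem_nhds (hVU hz))).eventually_constant_or_nhds_le_map_nhds.resolve_left
    (not_eventually_const_of_injOn hU hi (hVU hz))) (image_mem_map (hV.mem_nhds hz))

/-- The inverse of an injective holomorphic function is holomorphic. -/
theorem hasDerivAt_invFunOn {U : Set ℂ} {f : ℂ → ℂ} (hU : IsOpen U)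
    (hf : DifferentiableOn ℂ f U) (hi : InjOn f U) {z : ℂ} (hz : z ∈ U) :
    HasDerivAt (Function.invFunOn f U) (deriv f z)⁻¹ (f z) := by
  have hinv : Function.invFunOn f U (f z) = z := hi.leftInvOn_invFunOn hz
  apply HasDerivAt.of_local_left_inverse (f := f)
  · rw [ContinuousAt, hinv, tendsto_def]
    intro s hs
    obtain ⟨V, hV1, hV2, hV3⟩ := _root_.mem_nhds_iff.1 (inter_mem hs (hU.mem_nhds hz))
    have hVU : V ⊆ U := hV1.trans inter_subset_right
    filter_upwards [(isOpen_image_of_injOn hU hf hi hV2 hVU).mem_nhds ⟨z, hV3, rfl⟩]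
    rintro _ ⟨w, hw, rfl⟩
    rw [mem_preimage, hi.leftInvOn_invFunOn (hVU hw)]
    exact (hV1 hw).1
  · rw [hinv]
    exact (hf.differentiableAt (hU.mem_nhds hz)).hasDerivAt
  · exact deriv_ne_zero_of_injOn hU hf hi hz
  · filter_upwards [(isOpen_image_of_injOn hU hf hi hU subset_rfl).mem_nhds ⟨z, hz, rfl⟩]
    intro y hy
    exact Function.invFunOn_eq hy

theorem differentiableOn_invFunOn {U : Set ℂ} {f : ℂ → ℂ} (hU : IsOpen U)
    (hf : DifferentiableOn ℂ f U) (hi : InjOn f U) :
    DifferentiableOn ℂ (Function.invFunOn f U) (f '' U) := by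
  rintro _ ⟨z, hz, rfl⟩
  exact (hasDerivAt_invFunOn hU hf hi hz).differentiableAt.differentiableWithinAt

end Crest.Agent.Lib.Complex
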