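import Mathlib
import Crest.Agent.Lib.Complex.Univalent

/-!
Montel-type compactness (via ultrafilters), Hurwitz's theorem, disc automorphisms and holomorphic
square roots.
-/

set_option autoImplicit false

open Metric Set Filter Topology

namespace Crest.Agent.Lib.Complex

/-- Bounded holomorphic families: pointwise convergence gives locally uniform convergence. -/
theorem tendstoLocallyUniformlyOn_of_bounded {ι : Type*} {l : Filter ι} [l.NeBot] {U : Set ℂ}
    (hU : IsOpen U) {F : ι → ℂ → ℂ} {f : ℂ → ℂ} {M : ℝ} (hF : ∀ i, DifferentiableOn ℂ (F i) U)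
    (hM : ∀ i, ∀ z ∈ U, ‖F i z‖ ≤ M) (hlim : ∀ z ∈ U, Tendsto (fun i => F i z) l (𝓝 (f z))) :
    TendstoLocallyUniformlyOn F f l U := by
  rw [Metric.tendstoLocallyUniformlyOn_iff]
  intro ε hε x hx
  obtain ⟨R, hR, hRU⟩ := Metric.isOpen_iff.1 hU x hx
  have hM0 : 0 ≤ M := by
    obtain ⟨i⟩ := l.nonempty_of_neBot
    exact (norm_nonneg _).trans (hM i x hx)
  have hlip : ∀ i, ∀ y ∈ ball x R, dist (F i y) (F i x) ≤ (M + M) / R * dist y x := by
    intro i y hy
    refine Complex.dist_le_div_mul_dist_of_mapsTo_ball ((hF i).mono hRU) (fun w hw => ?_) hy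
    rw [mem_closedBall, dist_eq_norm]
    exact (norm_sub_le _ _).trans (add_le_add (hM i w (hRU hw)) (hM i x hx))
  have hlip' : ∀ y ∈ ball x R, dist (f y) (f x) ≤ (M + M) / R * dist y x := fun y hy =>
    le_of_tendsto' ((hlim y (hRU hy)).dist (hlim x hx)) fun i => hlip i y hy
  have hc : ContinuousAt (fun y => (M + M) / R * dist y x) x := by fun_prop
  have hsmall : ∀ᶠ y in 𝓝 x, (M + M) / R * dist y x < ε / 3 :=
    hc.eventually_lt continuousAt_const (by simp; positivity)
  refine ⟨{y | (M + M) / R * dist y x < ε / 3} ∩ ball x R,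
    nhdsWithin_le_nhds (inter_mem hsmall (ball_mem_nhds x hR)), ?_⟩
  filter_upwards [Metric.tendsto_nhds.1 (hlim x hx) (ε / 3) (by positivity)] with i hi y hy
  have h1 := (hlip i y hy.2).trans_lt hy.1
  have h2 := (hlip' y hy.2).trans_lt hy.1
  have h3 := dist_triangle4 (f y) (f x) (F i x) (F i y)
  rw [dist_comm] at hi h1
  linarith

/-- **Montel's theorem**, ultrafilter form. -/
theorem exists_tendstoLocallyUniformlyOn_ultrafilter {ι : Type*} (l : Ultrafilter ι) {U : Set ℂ}
    (hU : IsOpen U) {F : ι → ℂ → ℂ} {M : ℝ} (hF : ∀ i, DifferentiableOn ℂ (F i) U)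
    (hM : ∀ i, ∀ z ∈ U, ‖F i z‖ ≤ M) : ∃ f : ℂ → ℂ, TendstoLocallyUniformlyOn F f l U := by
  have : ∀ z ∈ U, ∃ w, Tendsto (fun i => F i z) l (𝓝 w) := by
    intro z hz
    obtain ⟨w, -, hw⟩ := (isCompact_closedBall (0 : ℂ) M).ultrafilter_le_nhds
      (l.map fun i => F i z) (by
        rw [Ultrafilter.coe_map, le_principal_iff, mem_map]
        exact Eventually.of_forall fun i => mem_closedBall_zero_iff.2 (hM i z hz))
    exact ⟨w, hw⟩
  choose! f hf using this
  exact ⟨f, tendstoLocallyUniformlyOn_of_bounded hU hF hM hf⟩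

/-- Values of a non-constant limit are attained nearby by the approximants. -/
theorem eventually_exists_eq_of_tendstoLocallyUniformlyOn {ι : Type*} {l : Filter ι} [l.NeBot]
    {U : Set ℂ} (hU : IsOpen U) {F : ι → ℂ → ℂ} {f : ℂ → ℂ}
    (hF : ∀ᶠ i in l, DifferentiableOn ℂ (F i) U) (hlim : TendstoLocallyUniformlyOn F f l U)
    {a : ℂ} (ha : a ∈ U) (hne : ¬ ∀ᶠ z in 𝓝 a, f z = f a) {R : ℝ} (hR : 0 < R) :
    ∀ᶠ i in l, ∃ w ∈ U, dist w a ≤ R ∧ F i w = f a := by
  have hf := hlim.differentiableOn hF hU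
  have h1 : ∀ᶠ z in 𝓝[≠] a, f z ≠ f a :=
    ((hf.analyticAt (hU.mem_nhds ha)).eventually_eq_or_eventually_ne analyticAt_const).resolve_left
      hne
  rw [eventually_nhdsWithin_iff] at h1
  obtain ⟨r, hr, hr2⟩ := Metric.nhds_basis_closedBall.mem_iff.1
    (inter_mem h1 (inter_mem (hU.mem_nhds ha) (closedBall_mem_nhds a hR)))
  have hrU : closedBall a r ⊆ U := fun z hz => (hr2 hz).2.1
  obtain ⟨z₁, hz₁, hmin⟩ := (isCompact_sphere a r).exists_isMinOn
    (NormedSpace.sphere_nonempty.2 hr.le) (f := fun z => ‖f z - f a‖)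
    (((hf.continuousOn.mono (sphere_subset_closedBall.trans hrU)).sub continuousOn_const).norm)
  set ε := ‖f z₁ - f a‖ with hε
  have hε0 : 0 < ε := by
    rw [hε, norm_pos_iff, sub_ne_zero]
    exact (hr2 (sphere_subset_closedBall hz₁)).1 (ne_of_mem_sphere hz₁ hr.ne')
  have hu := (tendstoLocallyUniformlyOn_iff_forall_isCompact hU).1 hlim _ hrU
    (isCompact_closedBall a r)
  filter_upwards [hF, Metric.tendstoUniformlyOn_iff.1 hu (ε / 4) (by positivity)] with i hi hi2
  have hlow : ∀ z ∈ sphere a r, ε / 2 ≤ ‖F i z - F i a‖ := by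
    intro z hz
    have e1 : ε ≤ ‖f z - f a‖ := hmin hz
    have e2 := hi2 z (sphere_subset_closedBall hz)
    have e3 := hi2 a (mem_closedBall_self hr.le)
    have e4 := dist_triangle4 (f z) (F i z) (F i a) (f a)
    rw [← dist_eq_norm] at e1 ⊢
    rw [dist_comm] at e3
    linarith
  have hdc : DiffContOnCl ℂ (F i) (ball a r) := by
    refine (hi.mono ?_).diffContOnCl
    rw [closure_ball a hr.ne']
    exact hrU
  have hfreq : ∃ᶠ z in 𝓝 a, F i z ≠ F i a := by
    by_contra hcon
    simp only [not_frequently, not_not] at hcon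
    have han : AnalyticOnNhd ℂ (F i) (closedBall a r) := (hi.analyticOnNhd hU).mono hrU
    have := han.eqOn_of_preconnected_of_eventuallyEq analyticOnNhd_const
      (convex_closedBall a r).isPreconnected (mem_closedBall_self hr.le) hcon
      (sphere_subset_closedBall hz₁)
    have h2 := hlow z₁ hz₁
    rw [this, sub_self, norm_zero] at h2
    linarith
  obtain ⟨w, hw, e⟩ := hdc.ball_subset_image_closedBall hr hlow hfreq (a := f a) (by
    have := hi2 a (mem_closedBall_self hr.le)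
    rw [mem_ball]; linarith)
  exact ⟨w, hrU hw, (hr2 hw).2.2, e⟩

/-- **Hurwitz's theorem**: a non-constant locally uniform limit of injective holomorphic functions
on a connected open set is injective. -/
theorem injOn_of_tendstoLocallyUniformlyOn {ι : Type*} {l : Filter ι} [l.NeBot]
    {U : Set ℂ} (hU : IsOpen U) (hUc : IsPreconnected U) {F : ι → ℂ → ℂ} {f : ℂ → ℂ}
    (hF : ∀ᶠ i in l, DifferentiableOn ℂ (F i) U) (hi : ∀ᶠ i in l, InjOn (F i) U)
    (hlim : TendstoLocallyUniformlyOn F f l U) (hnc : ¬ ∃ w, ∀ z ∈ U, f z = w) : InjOn f U := by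
  have hf := hlim.differentiableOn hF hU
  have hne : ∀ a ∈ U, ¬ ∀ᶠ z in 𝓝 a, f z = f a := fun a ha h =>
    hnc ⟨f a, (hf.analyticOnNhd hU).eqOn_of_preconnected_of_eventuallyEq analyticOnNhd_const
      hUc ha h⟩
  intro a ha b hb hab
  by_contra hne'
  have hd : 0 < dist a b / 3 := by have := dist_pos.2 hne'; positivity
  obtain ⟨i, ⟨w₁, a1, a2, a3⟩, ⟨w₂, b1, b2, b3⟩, hinj⟩ :=
    ((eventually_exists_eq_of_tendstoLocallyUniformlyOn hU hF hlim ha (hne a ha) hd).and
    ((eventually_exists_eq_of_tendstoLocallyUniformlyOn hU hF hlim hb (hne b hb) hd).and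
      hi)).exists
  have : w₁ = w₂ := hinj a1 b1 (by rw [a3, b3, hab])
  subst this
  have := dist_triangle_left a b w₁
  linarith

/-- The disc automorphism sending `a` to `0`. -/
noncomputable def mob (a w : ℂ) : ℂ := (w - a) / (1 - (starRingEnd ℂ) a * w)

theorem mob_den_ne_zero {a w : ℂ} (ha : ‖a‖ < 1) (hw : ‖w‖ < 1) :
    1 - (starRingEnd ℂ) a * w ≠ 0 := by
  intro h
  have h1 : ‖(starRingEnd ℂ) a * w‖ = 1 := by rw [← sub_eq_zero.1 h]; simp
  rw [norm_mul, Complex.norm_conj] at h1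
  nlinarith [norm_nonneg a, norm_nonneg w]

theorem norm_mob_lt_one {a w : ℂ} (ha : ‖a‖ < 1) (hw : ‖w‖ < 1) : ‖mob a w‖ < 1 := by
  rw [mob, norm_div, div_lt_one (norm_pos_iff.2 (mob_den_ne_zero ha hw)), ← sq_lt_sq₀
    (norm_nonneg _) (norm_nonneg _), ← Complex.normSq_eq_norm_sq, ← Complex.normSq_eq_norm_sq]
  have ha' : Complex.normSq a < 1 := by
    rw [Complex.normSq_eq_norm_sq]; nlinarith [norm_nonneg a]
  have hw' : Complex.normSq w < 1 := by
    rw [Complex.normSq_eq_norm_sq]; nlinarith [norm_nonneg w]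
  have : Complex.normSq (1 - (starRingEnd ℂ) a * w) - Complex.normSq (w - a) =
      (1 - Complex.normSq a) * (1 - Complex.normSq w) := by
    simp only [Complex.normSq_apply, Complex.sub_re, Complex.sub_im, Complex.mul_re,
      Complex.mul_im, Complex.conj_re, Complex.conj_im, Complex.one_re, Complex.one_im]
    ring
  nlinarith [mul_pos (sub_pos.2 ha') (sub_pos.2 hw')]

theorem one_sub_conj_mul_self (a : ℂ) : 1 - (starRingEnd ℂ) a * a = ((1 - ‖a‖ ^ 2 : ℝ) : ℂ) := by
  rw [Complex.conj_mul']; push_cast; ring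

theorem mob_injOn {a : ℂ} (ha : ‖a‖ < 1) : InjOn (mob a) (ball 0 1) := by
  intro w hw w' hw' h
  rw [mem_ball_zero_iff] at hw hw'
  rw [mob, mob, div_eq_div_iff (mob_den_ne_zero ha hw) (mob_den_ne_zero ha hw')] at h
  apply mul_left_cancel₀ (mob_den_ne_zero ha ha)
  linear_combination h

theorem hasDerivAt_mob {a w : ℂ} (ha : ‖a‖ < 1) (hw : ‖w‖ < 1) :
    HasDerivAt (mob a) ((1 - (starRingEnd ℂ) a * a) / (1 - (starRingEnd ℂ) a * w) ^ 2) w := by
  have h := ((hasDerivAt_id' w).sub_const a).fun_div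
    (((hasDerivAt_id' w).const_mul ((starRingEnd ℂ) a)).const_sub 1) (mob_den_ne_zero ha hw)
  exact h.congr_deriv (by ring)

/-- A continuous square root of a differentiable function is differentiable where it is non-zero. -/
theorem hasDerivAt_of_sq_eq {g h : ℂ → ℂ} {g' z : ℂ} (hg : HasDerivAt g g' z)
    (hc : ContinuousAt h z) (h0 : h z ≠ 0) (hsq : ∀ w, h w ^ 2 = g w) :
    HasDerivAt h (g' / (2 * h z)) z := by
  rw [hasDerivAt_iff_tendsto_slope] at hg ⊢
  have h2 : h z + h z ≠ 0 := by rw [← two_mul]; exact mul_ne_zero two_ne_zero h0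
  have hc2 : Tendsto (fun w => h w + h z) (𝓝[≠] z) (𝓝 (h z + h z)) :=
    (hc.tendsto.add_const _).mono_left nhdsWithin_le_nhds
  rw [two_mul]
  refine (hg.div hc2 h2).congr' ?_
  filter_upwards [hc2.eventually_ne h2, self_mem_nhdsWithin] with w hw hwz
  have : w - z ≠ 0 := sub_ne_zero.2 hwz
  simp only [slope_def_field, Pi.div_apply, ← hsq]
  field_simp
  ring

end Crest.Agent.Lib.Complex
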