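import Mathlib
import Crest.Agent.Lib.Complex.Univalent
import Crest.Agent.Lib.Complex.Montel

/-!
The Riemann mapping theorem for bounded simply connected open subsets of the plane.
-/

set_option autoImplicit false

open Metric Set Filter Topology

namespace Crest.Agent.Lib.Complex

/-- The square-root trick: a non-surjective normalised injection into the disc can be improved. -/
theorem exists_better_of_not_surjOn {U : Set ℂ} (hUo : IsOpen U) (hUc : IsSimplyConnected U)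
    {z₀ : ℂ} (hz₀ : z₀ ∈ U) {f : ℂ → ℂ} (hf : DifferentiableOn ℂ f U) (hi : InjOn f U)
    (hm : MapsTo f U (ball 0 1)) (h0 : f z₀ = 0) {c : ℂ} (hc : c ∈ ball (0 : ℂ) 1)
    (hcf : c ∉ f '' U) :
    ∃ k : ℂ → ℂ, (DifferentiableOn ℂ k U ∧ InjOn k U ∧ MapsTo k U (ball 0 1) ∧ k z₀ = 0) ∧
      ‖deriv f z₀‖ < ‖deriv k z₀‖ := by
  rw [mem_ball_zero_iff] at hc
  have hm' : ∀ z ∈ U, ‖f z‖ < 1 := fun z hz => mem_ball_zero_iff.1 (hm hz)
  let g : ℂ → ℂ := fun z => mob c (f z)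
  have hg : ∀ z ∈ U, HasDerivAt g
      ((1 - (starRingEnd ℂ) c * c) / (1 - (starRingEnd ℂ) c * f z) ^ 2 * deriv f z) z :=
    fun z hz => (hasDerivAt_mob hc (hm' z hz)).comp z
      (hf.differentiableAt (hUo.mem_nhds hz)).hasDerivAt
  have hg0 : ∀ z ∈ U, g z ≠ 0 := fun z hz =>
    div_ne_zero (sub_ne_zero.2 fun e => hcf ⟨z, hz, e⟩) (mob_den_ne_zero hc (hm' z hz))
  obtain ⟨h, hhc, hh⟩ := Complex.exists_continuousOn_pow_eq hUc hUo
    (g := g) (fun z hz => (hg z hz).continuousAt.continuousWithinAt)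
    (by rintro ⟨z, hz, e⟩; exact hg0 z hz e) two_ne_zero
  have hh0 : ∀ z ∈ U, h z ≠ 0 := fun z hz e => hg0 z hz (by rw [← hh z, e]; simp)
  have hh1 : ∀ z ∈ U, ‖h z‖ < 1 := fun z hz => by
    rw [← pow_lt_one_iff_of_nonneg (norm_nonneg _) two_ne_zero, ← norm_pow, hh]
    exact norm_mob_lt_one hc (hm' z hz)
  have hhd := fun z (hz : z ∈ U) =>
    hasDerivAt_of_sq_eq (hg z hz) (hhc.continuousAt (hUo.mem_nhds hz)) (hh0 z hz) hh
  set d := h z₀ with hd
  have hd1 : ‖d‖ < 1 := hh1 z₀ hz₀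
  have hd0 : 0 < ‖d‖ := norm_pos_iff.2 (hh0 z₀ hz₀)
  have hkd := fun z (hz : z ∈ U) => (hasDerivAt_mob hd1 (hh1 z hz)).comp z (hhd z hz)
  refine ⟨mob d ∘ h, ⟨fun z hz => (hkd z hz).differentiableAt.differentiableWithinAt, ?_, ?_, ?_⟩,
    ?_⟩
  · intro z hz w hw e
    have e1 := mob_injOn hd1 (mem_ball_zero_iff.2 (hh1 z hz)) (mem_ball_zero_iff.2 (hh1 w hw)) e
    have e2 : g z = g w := by rw [← hh z, ← hh w, e1]
    exact hi hz hw (mob_injOn hc (hm hz) (hm hw) e2)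
  · intro z hz
    exact mem_ball_zero_iff.2 (norm_mob_lt_one hd1 (hh1 z hz))
  · simp [mob, hd]
  · have hcd : ‖c‖ = ‖d‖ ^ 2 := by
      rw [← norm_pow, hd, hh]; simp [g, mob, h0]
    have hp : 0 < ‖deriv f z₀‖ := norm_pos_iff.2 (deriv_ne_zero_of_injOn hUo hf hi hz₀)
    have h1 : 0 < 1 - ‖d‖ ^ 2 := by nlinarith
    have h2 : 0 < 1 - ‖c‖ ^ 2 := by nlinarith [norm_nonneg c]
    rw [(hkd z₀ hz₀).deriv, h0, ← hd, one_sub_conj_mul_self, one_sub_conj_mul_self]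
    simp only [norm_mul, norm_div, norm_pow, Complex.norm_real, Real.norm_of_nonneg h1.le,
      Real.norm_of_nonneg h2.le, mul_zero, sub_zero, norm_one, Complex.norm_ofNat]
    rw [hcd]
    have e : (1 - ‖d‖ ^ 2) / (1 - ‖d‖ ^ 2) ^ 2 *
        ((1 - (‖d‖ ^ 2) ^ 2) / 1 ^ 2 * ‖deriv f z₀‖ / (2 * ‖d‖)) =
        (1 + ‖d‖ ^ 2) / (2 * ‖d‖) * ‖deriv f z₀‖ := by
      field_simp
      ring
    rw [e]
    refine lt_mul_of_one_lt_left hp ?_
    rw [one_lt_div (by positivity)]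
    nlinarith [mul_pos (sub_pos.2 hd1) (sub_pos.2 hd1)]

/-- **Riemann mapping theorem** (bounded case). -/
theorem exists_riemannMap_of_isBounded {U : Set ℂ} (hUo : IsOpen U) (hUc : IsSimplyConnected U)
    (hUb : Bornology.IsBounded U) {z₀ : ℂ} (hz₀ : z₀ ∈ U) :
    ∃ f : ℂ → ℂ, DifferentiableOn ℂ f U ∧ BijOn f U (ball 0 1) ∧ f z₀ = 0 := by
  let P : (ℂ → ℂ) → Prop := fun f =>
    DifferentiableOn ℂ f U ∧ InjOn f U ∧ MapsTo f U (ball 0 1) ∧ f z₀ = 0
  let S : Set ℝ := {s | ∃ f, P f ∧ s = ‖deriv f z₀‖}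
  obtain ⟨f₀, hf₀⟩ : ∃ f, P f := by
    obtain ⟨R, hR, hUR⟩ := hUb.subset_ball_lt 0 z₀
    have hR' : (R : ℂ) ≠ 0 := by exact_mod_cast hR.ne'
    refine ⟨fun z => (z - z₀) / R, by fun_prop, fun z _ w _ e => ?_, fun z hz => ?_, by simp⟩
    · simpa [hR'] using e
    · rw [mem_ball_zero_iff, norm_div, Complex.norm_real, Real.norm_of_nonneg hR.le,
        div_lt_one hR, ← dist_eq_norm]
      exact hUR hz
  obtain ⟨r, hr, hrU⟩ := Metric.isOpen_iff.1 hUo z₀ hz₀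
  have hbdd : BddAbove S := by
    refine ⟨1 / r, ?_⟩
    rintro _ ⟨f, ⟨h1, -, h3, h4⟩, rfl⟩
    refine Complex.norm_deriv_le_div_of_mapsTo_ball (h1.mono hrU) (fun z hz => ?_) hr
    rw [h4]
    exact ball_subset_closedBall (h3 (hrU hz))
  obtain ⟨u, -, hu, huS⟩ := exists_seq_tendsto_sSup (S := S) ⟨_, f₀, hf₀, rfl⟩ hbdd
  choose F hF hFu using huS
  let l : Ultrafilter ℕ := Ultrafilter.of atTop
  obtain ⟨f, hlim⟩ := exists_tendstoLocallyUniformlyOn_ultrafilter l hUo (F := F) (M := 1)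
    (fun i => (hF i).1) (fun i z hz => (mem_ball_zero_iff.1 ((hF i).2.2.1 hz)).le)
  have hFd : ∀ᶠ i in (l : Filter ℕ), DifferentiableOn ℂ (F i) U :=
    Eventually.of_forall fun i => (hF i).1
  have hf := hlim.differentiableOn hFd hUo
  have hder : ‖deriv f z₀‖ = sSup S := by
    have h1 := ((hlim.deriv hFd hUo).tendsto_at hz₀).norm
    have h2 := hu.mono_left (Ultrafilter.of_le atTop)
    rw [funext hFu] at h2
    exact tendsto_nhds_unique h1 h2
  have hpos : 0 < ‖deriv f z₀‖ := by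
    rw [hder]
    exact (norm_pos_iff.2 (deriv_ne_zero_of_injOn hUo hf₀.1 hf₀.2.1 hz₀)).trans_le
      (le_csSup hbdd ⟨f₀, hf₀, rfl⟩)
  have hnc : ¬ ∃ w, ∀ z ∈ U, f z = w := by
    rintro ⟨w, hw⟩
    have : f =ᶠ[𝓝 z₀] fun _ => w := by
      filter_upwards [hUo.mem_nhds hz₀] with z hz using hw z hz
    rw [this.deriv_eq] at hpos
    simp at hpos
  have hi : InjOn f U := injOn_of_tendstoLocallyUniformlyOn hUo
    hUc.isPathConnected.isConnected.isPreconnected hFd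
    (Eventually.of_forall fun i => (hF i).2.1) hlim hnc
  have h0 : f z₀ = 0 := by
    have h1 := hlim.tendsto_at hz₀
    simp only [fun i => (hF i).2.2.2] at h1
    exact tendsto_nhds_unique h1 tendsto_const_nhds
  have hm : MapsTo f U (ball 0 1) := by
    rw [mapsTo_iff_image_subset, ← interior_closedBall (0 : ℂ) one_ne_zero]
    refine interior_maximal ?_ (isOpen_image_of_injOn hUo hf hi hUo subset_rfl)
    rintro _ ⟨z, hz, rfl⟩
    exact isClosed_closedBall.mem_of_tendsto (hlim.tendsto_at hz)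
      (Eventually.of_forall fun i => ball_subset_closedBall ((hF i).2.2.1 hz))
  refine ⟨f, hf, ⟨hm, hi, fun c hc => ?_⟩, h0⟩
  by_contra hcf
  obtain ⟨k, hk, hlt⟩ := exists_better_of_not_surjOn hUo hUc hz₀ hf hi hm h0 hc hcf
  rw [hder] at hlt
  exact absurd (le_csSup hbdd ⟨k, hk, rfl⟩) (not_le.2 hlt)

end Crest.Agent.Lib.Complex
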